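import Vale.Agent.P352X.R.TWO.Vc
import Vale.Agent.P352Z.P352X.R.TWO.Rho

open Vale.Agent.P352G

/-!
# P352X: covariant vectors and their overlaps (helper21)
-/

set_option linter.all false

open MeasureTheory Measure Set Filter Topology
open scoped SchwartzMap ComplexConjugate NNReal ENNReal

namespace Vale.Agent.P352X.Two

open Vale.Agent.P352.GF Vale.Agent.P352.BW Vale.Agent.P352.H496 Vale.Agent.P352.H755
open Vale.Agent.P352.H246 (In)
open UniformSpace (Completion)
open Complex (I)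

noncomputable section

section meas

variable {ρ : Measure V} {A B : ℝ}

end meas

variable {D : Type*} [NormedAddCommGroup D] [InnerProductSpace ℂ D] [GrD D] {c : CtxZ D}
  {K : V → ℂ} {S : Set V} {v w : Completion D}

/-- the two point measure of `v / K` -/
def rkZ (c : CtxZ D) (K : V → ℂ) (v : Completion D) : Measure V :=
  (c.nu v).withDensity (sq2 fun p => (K p)⁻¹)

lemma Wt.finZ (h : Wt K S) (v : Completion D) : FinOn (rkZ c K v) S :=
  fin_wd (h.cont.inv₀ fun p _ => h.ne p)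

lemma Wt.nuZ (h : Wt K S) (v : Completion D) : c.nu v = (rkZ c K v).withDensity (sq2 K) := by
  rw [rkZ, wd_sq2 _ (minv h.bd.1) h.bd.1]
  simp only [inv_mul_cancel₀ (h.ne _), sq2_one, withDensity_one]

lemma nu_Phi'Z {F : V → ℂ} (hF : SN.Bd F) (v : Completion D) :
    c.nu (c.bt.Phi F v) = (c.nu v).withDensity (sq2 F) := c.bt.nu_Phi hF v

lemma nu_realZ (t : ℝ) (v : Completion D) :
    c.nu ((t : ℂ) • v) = ENNReal.ofReal (t ^ 2) • c.nu v := by
  rw [CtxZ.nu, c.bt.nu_smul, ENNReal.ofReal, ← ENNReal.smul_def]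
  congr 1
  ext
  simp [Real.coe_toNNReal _ (sq_nonneg t)]

lemma eq_zero_of_nuZ (h : c.nu v = 0) : v = 0 := by
  have := c.bt.nu_univ v
  rw [show c.bt.nu v = 0 from h] at this
  simpa using this.symm

/-- `Phi K` is injective -/
lemma Phi_injZ (hK : SN.Bd K) (h0 : ∀ p, K p ≠ 0) (h : c.bt.Phi K v = c.bt.Phi K w) : v = w := by
  refine sub_eq_zero.1 (eq_zero_of_nuZ (c := c) ?_)
  rw [← wd_inv (c.nu (v - w)) hK.1 h0, ← nu_Phi'Z hK, map_sub, h, sub_self, CtxZ.nu, c.bt.nu_zero,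
    withDensity_zero_left]

lemma rk_mapZ (hK : Wt K S) {W : Completion D →L[ℂ] Completion D}
    (hW : W ∈ unitary (Completion D →L[ℂ] Completion D)) {A k : V → V} {t : ℝ} (ht : 0 < t)
    (hk : Measurable k) (h : ∀ y, W * Ut c.Q y = Ut c.Q (A y) * W)
    (hA : ∀ p y, mdot (k p) y = mdot p (A y))
    (e : c.bt.Phi K (W v) = (t : ℂ) • c.bt.Phi (fun p => K (k p)) v) :
    (rkZ c K v).map k = ENNReal.ofReal ((t ^ 2)⁻¹) • rkZ c K v := by
  have a := nu_WZ hW hk h hA v
  have b := congrArg (fun u => (c.nu u).withDensity (sq2 fun p => (K p)⁻¹)) e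
  simp only [nu_realZ, nu_Phi'Z hK.bd, nu_Phi'Z (hK.bd.comp hk), wd_inv _ hK.bd.1 hK.ne,
    withDensity_smul_measure] at b
  rw [wd_sq2 _ (hK.bd.comp hk).1 (minv hK.bd.1)] at b
  simp only [mul_comm (K (k _))] at b
  rw [← wd_sq2 _ (minv hK.bd.1) (hK.bd.comp hk).1] at b
  rw [b, Measure.map_smul] at a
  have m := map_wd (rkZ c K v) hk (meas_sq2 hK.bd.1)
  have b2 := congrArg (fun m : Measure V => m.withDensity (sq2 fun p => (K p)⁻¹)) a
  simp only [withDensity_smul_measure] at b2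
  rw [show ((c.nu v).withDensity (sq2 fun p => (K p)⁻¹)).withDensity (sq2 fun p => K (k p)) =
    (rkZ c K v).withDensity fun p => sq2 K (k p) from rfl, m, wd_inv _ hK.bd.1 hK.ne] at b2
  conv_rhs => rw [rkZ, ← b2, smul_smul, ← ENNReal.ofReal_mul (by positivity),
    inv_mul_cancel₀ (by positivity), ENNReal.ofReal_one, one_smul]

/-- `v / K` is invariant under the null rotations and homogeneous under the scalings -/
structure VcZ (c : CtxZ D) (K : V → ℂ) (v : Completion D) (x y : ℝ) : Prop where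
  ga : ∀ w, c.bt.Phi K (Ga c.Q w v) = c.bt.Phi (fun p => K (gap (-w) p)) v
  sc : ∀ r s, 0 < r → 0 < s → c.bt.Phi K (Usc c.Q r s v) =
    ((r ^ x * s ^ y : ℝ) : ℂ) • c.bt.Phi (fun p => K (scp s r p)) v

variable {x y x' y' : ℝ}

theorem VcZ.semi (h : VcZ c K v x y) (hK : Wt K S) : Semi (rkZ c K v) (-2 * y) (-2 * x) where
  ga w := by
    have := rk_mapZ hK ((grp_rowZ c).uni _ _ _) one_pos (meas_gap (- -w)) ((grp_rowZ c).ga_ut (-w))
      (md_gap_l (-w)) ((h.ga (-w)).trans (by simp))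
    simpa using this
  sc r s hr hs := by
    rw [rk_mapZ hK ((grp_rowZ c).uni _ _ _) (t := s ^ x * r ^ y) (by positivity) (meas_scp r s)
      (fun z => (grp_rowZ c).sc_ut s r z hs hr) (fun p z => md_scp_l p z) (h.sc s r hs hr)]
    congr 2
    rw [mul_comm (-2), mul_comm (-2), Real.rpow_mul hr.le, Real.rpow_mul hs.le,
      Real.rpow_neg (by positivity), Real.rpow_neg (by positivity), Real.rpow_two, Real.rpow_two]
    field_simp

/-- the part in the open cone -/
theorem VcZ.fc (h : VcZ c K v x y) (hK : Wt K Fc) : ∃ κ : ℝ≥0, (c.nu v).restrict Fc =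
    κ • (mm (2 * x - 2 * y) (2 * y - 2)).withDensity (sq2 K) := by
  obtain ⟨κ, e⟩ := (h.semi hK).eq_mm (hK.finZ v)
  rw [show -2 * y - -2 * x = 2 * x - 2 * y by ring, show -(-2 * y) - 2 = 2 * y - 2 by ring] at e
  exact ⟨κ, by rw [hK.nuZ v, restrict_withDensity meas_Fc, e]; exact withDensity_smul_measure _ _⟩

theorem VcZ.low (h : VcZ c K v x y) (hK : Wt K univ) (hy : y ≤ 1 / 2) :
    (c.nu v).restrict Fc = 0 := by
  rw [hK.nuZ v, restrict_withDensity meas_Fc,
    (h.semi hK).zero' ((hK.mono (subset_univ _)).finZ v) (by linarith), withDensity_zero_left]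

theorem VcZ.high (h : VcZ c K v x y) (hK : Wt K univ) (hy : 1 / 2 < y) (hv : inner ℂ c.Om v = 0) :
    ∀ᵐ p ∂c.nu v, p ∈ Fc := by
  obtain ⟨κ, e⟩ := (h.semi hK).cls ((hK.mono (subset_univ _)).finZ v)
    (withDensity_absolutelyContinuous _ _ (by
      filter_upwards [Br.ae_be_posZ c hv, (bas_thmZ c).cone v] with p h1 h2 using ⟨h1, h2.2⟩))
    (by linarith)
  rw [hK.nuZ v, e]
  exact ae_wd (Measure.smul_absolutelyContinuous (ae_wd (ae_fc _) _)) _

lemma VcZ.add (h : VcZ c K v x y) (h' : VcZ c K w x y) (z : ℂ) : VcZ c K (v + z • w) x y where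
  ga u := by simp only [map_add, map_smul, h.ga, h'.ga]
  sc r s hr hs := by
    simp only [map_add, map_smul, h.sc r s hr hs, h'.sc r s hr hs, smul_add]
    rw [smul_comm z]

lemma Ga_PhiZ (w : R2) {F : V → ℂ} (hF : SN.Bd F) (v : Completion D) :
    Ga c.Q w (c.bt.Phi F v) = c.bt.Phi (fun p => F (gap (-w) p)) (Ga c.Q w v) :=
  Phi_WZ (meas_gap _) ((grp_rowZ c).ga_ut w) (md_gap_l w) hF v

lemma Usc_PhiZ {r s : ℝ} (hr : 0 < r) (hs : 0 < s) {F : V → ℂ} (hF : SN.Bd F) (v : Completion D) :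
    Usc c.Q r s (c.bt.Phi F v) = c.bt.Phi (fun p => F (scp s r p)) (Usc c.Q r s v) :=
  Phi_WZ (meas_scp _ _) (fun z => (grp_rowZ c).sc_ut r s z hr hs) (fun p z => md_scp_l p z) hF v

/-- multiplication with homogeneous functions -/
lemma VcZ.mul (h : VcZ c K v x y) (hK : SN.Bd K) {M N : V → ℂ} (hN : SN.Bd N)
    (hM : SN.Bd fun p => M p * N p) (h1 : ∀ w p, M (gap w p) = M p) {a b : ℝ}
    (h2 : ∀ r s p, 0 < r → 0 < s → M (scp s r p) = (r ^ a * s ^ b : ℝ) * M p) :
    VcZ c (fun p => K p * N p) (c.bt.Phi (fun p => M p * N p) v) (x + a) (y + b) where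
  ga w := by
    have k := meas_gap (-w)
    rw [Ga_PhiZ w hM, ← c.bt.mul_apply (hK.mul hN) (hM.comp k), ← c.bt.mul_apply
      ((hK.mul hN).comp k) hM, show (fun p => K p * N p * (M (gap (-w) p) * N (gap (-w) p))) =
        fun p => (N (gap (-w) p) * (M p * N p)) * K p from funext fun p => by rw [h1]; ring,
      c.bt.mul_apply ((hN.comp k).mul hM) hK, h.ga,
      ← c.bt.mul_apply ((hN.comp k).mul hM) (hK.comp k)]
    congr 2
    funext p
    ring
  sc r s hr hs := by
    have k := meas_scp s r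
    rw [Usc_PhiZ hr hs hM, ← c.bt.mul_apply (hK.mul hN) (hM.comp k), ← c.bt.mul_apply
      ((hK.mul hN).comp k) hM, show (fun p => K p * N p * (M (scp s r p) * N (scp s r p))) =
        fun p => (r ^ a * s ^ b : ℝ) * ((N (scp s r p) * (M p * N p)) * K p) from
          funext fun p => by rw [h2 r s p hr hs]; ring,
      c.bt.smul _ (((hN.comp k).mul hM).mul hK), ContinuousLinearMap.smul_apply,
      c.bt.mul_apply ((hN.comp k).mul hM) hK, h.sc r s hr hs, map_smul,
      ← c.bt.mul_apply ((hN.comp k).mul hM) (hK.comp k), smul_smul, Real.rpow_add hr,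
      Real.rpow_add hs]
    congr 1
    · push_cast; ring
    · congr 2
      funext p
      ring

/-- overlaps, equal weights -/
theorem overlap0Z (h : VcZ c K v x y) (h' : VcZ c K w x y) (hK : Wt K Fc)
    (hv : ∀ᵐ p ∂c.nu v, p ∈ Fc) (hw : ∀ᵐ p ∂c.nu w, p ∈ Fc) : ∃ κ : ℂ, ∀ G, SN.Bd G →
      inner ℂ v (c.bt.Phi G w) =
        κ * ∫ p, G p ∂(mm (2 * x - 2 * y) (2 * y - 2)).withDensity (sq2 K) := by
  have key : ∀ z : ℂ, ∃ κ : ℝ≥0, ∀ G, SN.Bd G → inner ℂ (v + z • w) (c.bt.Phi G (v + z • w)) =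
      κ * ∫ p, G p ∂(mm (2 * x - 2 * y) (2 * y - 2)).withDensity (sq2 K) := fun z => by
    obtain ⟨κ, e⟩ := (h.add h' z).fc hK
    rw [restrict_eq_self_of_ae_mem (SN.Calc.ae_add hv (SN.Calc.ae_smul z hw))] at e
    refine ⟨κ, fun G hG => ?_⟩
    rw [c.bt.inner hG, show c.bt.nu (v + z • w) = _ from e, integral_smul_nnreal_measure]
    simp [NNReal.smul_def]
  choose κ hκ using key
  refine ⟨(κ 1 - κ (-1) - I * κ I + I * κ (-I)) / 4, fun G hG => ?_⟩
  have a1 := hκ 1 G hG
  have a2 := hκ (-1) G hG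
  have a3 := hκ I G hG
  have a4 := hκ (-I) G hG
  simp only [map_add, map_smul, inner_add_left, inner_add_right, inner_smul_left, inner_smul_right,
    map_one, map_neg, Complex.conj_I] at a1 a2 a3 a4
  linear_combination (a1 - a2 - I * a3 + I * a4) / 4 +
    (inner ℂ v (c.bt.Phi G w) - inner ℂ w (c.bt.Phi G v)) / 2 * Complex.I_sq

/-- removal of a weight -/
theorem liftZ {m : Measure V} {R F : V → ℂ} (hR : SN.Bd R) (hF : Integrable F m)
    (h : ∀ G, SN.Bd G → inner ℂ v (c.bt.Phi (fun p => G p * R p) w) = ∫ p, G p * R p * F p ∂m)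
    (h1 : ∀ᵐ p ∂c.nu v, R p ≠ 0) (h2 : ∀ᵐ p ∂m, R p ≠ 0) {G : V → ℂ} (hG : SN.Bd G) :
    inner ℂ v (c.bt.Phi G w) = ∫ p, G p * F p ∂m := by
  obtain ⟨C, hC0, hC⟩ := hG.nonneg_bound
  let A : ℕ → Set V := fun n => {p | 1 / ((n : ℝ) + 1) ≤ ‖R p‖}
  have hA : ∀ n, MeasurableSet (A n) := fun n => measurableSet_le measurable_const hR.1.norm
  have e : ∀ n, inner ℂ (c.bt.Phi (fun p => conj ((A n).indicator G p)) v) w =
      ∫ p, (A n).indicator G p * F p ∂m := fun n => by
    have e1 : ∀ p, (A n).indicator (fun p => G p / R p) p * R p = (A n).indicator G p := fun p => by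
      by_cases hp : p ∈ A n
      · have : R p ≠ 0 := norm_pos_iff.1 (lt_of_lt_of_le (by positivity) hp)
        simp [hp, this]
      · simp [hp]
    have := h ((A n).indicator fun p => G p / R p) ⟨(hG.1.div hR.1).indicator (hA n), C * (n + 1),
      fun p => by
        by_cases hp : p ∈ A n
        · rw [indicator_of_mem hp, norm_div, div_le_iff₀ (lt_of_lt_of_le (by positivity) hp)]
          have : 1 ≤ ((n : ℝ) + 1) * ‖R p‖ := (div_le_iff₀' (by positivity)).1 hp
          nlinarith [hC p]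
        · rw [indicator_of_notMem hp, norm_zero]
          positivity⟩
    simp only [e1] at this
    rw [← this, c.bt.adj' (hG.indicator (hA n))]
  have lim : ∀ p, R p ≠ 0 → Tendsto (fun n => (A n).indicator G p) atTop (𝓝 (G p)) := fun p hp =>
    tendsto_const_nhds.congr' (((tendsto_one_div_add_atTop_nhds_zero_nat (𝕜 := ℝ)).eventually
      (eventually_le_nhds (norm_pos_iff.2 hp))).mono fun n hn => (indicator_of_mem (show p ∈ A n from hn) G).symm)
  have bd : ∀ n p, ‖(A n).indicator G p‖ ≤ C := fun n p =>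
    (norm_indicator_le_norm_self _ _).trans (hC p)
  have t1 := (c.bt.tendsto_Phi (fun n => (hG.indicator (hA n)).cj) hG.cj (K := C) (v := v)
    (.of_forall fun n => .of_forall fun p => by simpa using bd n p)
    (h1.mono fun p hp => (Complex.continuous_conj.tendsto _).comp (lim p hp))).inner
    (𝕜 := ℂ) (tendsto_const_nhds (x := w))
  have t2 := tendsto_integral_of_dominated_convergence (μ := m)
    (F := fun n p => (A n).indicator G p * F p) (f := fun p => G p * F p) (fun p => C * ‖F p‖)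
    (fun n => (hG.indicator (hA n)).1.aestronglyMeasurable.mul hF.1) (hF.norm.const_mul C)
    (fun n => .of_forall fun p => by rw [norm_mul]; gcongr; exact bd n p)
    (h2.mono fun p hp => (lim p hp).mul_const _)
  rw [c.bt.adj' hG]
  exact tendsto_nhds_unique t1 (by simpa only [e] using t2)

lemma int_dnZ (hK : Measurable K) {a b : ℝ} {κ : ℝ≥0}
    (e : (c.nu v).restrict Fc = κ • (mm a b).withDensity (sq2 K)) (h : (c.nu v).restrict Fc ≠ 0) :
    IntegrableOn (dn K a b) Fc := by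
  have hk : (κ : ℝ≥0∞) ≠ 0 := fun hz => h (by rw [e, ENNReal.coe_eq_zero.1 hz, zero_smul])
  refine ⟨(meas_dn hK a b).aestronglyMeasurable,
    (hasFiniteIntegral_iff_ofReal ((ae_fc _).mono fun p => dn_nonneg K a b)).2 ?_⟩
  have := measure_lt_top ((c.nu v).restrict Fc) univ
  rw [e, mm_wd hK, Measure.smul_apply, withDensity_apply _ MeasurableSet.univ, restrict_univ,
    ENNReal.smul_def, smul_eq_mul] at this
  exact (ENNReal.mul_lt_top_iff.1 this).elim And.right fun h => h.elim (fun h => (hk h).elim)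
    fun h => h ▸ ENNReal.zero_lt_top

lemma VcZ.pfc (h : VcZ c K v x y) (hK : SN.Bd K) : VcZ c K (c.bt.P Fc v) x y := by
  have := h.mul hK (M := Fc.indicator fun _ => 1) (N := fun _ => 1) (.const 1)
    (by simpa using SN.Bd.ind meas_Fc) (fun w p => by by_cases hp : p ∈ Fc <;> simp [hp, Fc_gap]) (a := 0)
    (b := 0) fun r s p hr hs => by by_cases hp : p ∈ Fc <;> simp [hp, Fc_scp hs hr]
  simpa [SN.Calc.P] using this

/-- **overlaps of covariant vectors** -/
theorem overlapZ (h : VcZ c K v x y) (h' : VcZ c K w x' y') (hK : Wt K univ)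
    (hv : ∀ᵐ p ∂c.nu v, p ∈ Fc) : ∃ κ : ℂ, (κ ≠ 0 → 1 / 2 < y ∧ 1 / 2 < y') ∧
      IntegrableOn (fun p => κ * dn K (x + x' - y - y') (y + y' - 2) p) Fc ∧ ∀ G, SN.Bd G →
      inner ℂ v (c.bt.Phi G w) = ∫ p in Fc, G p * (κ * dn K (x + x' - y - y') (y + y' - 2) p) := by
  have pv : c.bt.P Fc v = v := (SN.Calc.P_eq_self meas_Fc).2 hv
  have red : ∀ G, SN.Bd G → inner ℂ v (c.bt.Phi G w) = inner ℂ v (c.bt.Phi G (c.bt.P Fc w)) :=
    fun G hG => by
      rw [SN.Calc.P, c.bt.comm hG (.ind meas_Fc), ← SN.Calc.P, ← SN.Calc.P_adj meas_Fc, pv]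
  by_cases h0 : (c.nu v).restrict Fc = 0 ∨ (c.nu w).restrict Fc = 0
  · refine ⟨0, fun h => (h rfl).elim, by simp, fun G hG => ?_⟩
    rcases h0 with h0 | h0
    · simp [eq_zero_of_nuZ ((restrict_eq_self_of_ae_mem hv).symm.trans h0)]
    · simp [red G hG, eq_zero_of_nuZ ((SN.Calc.nu_P meas_Fc w).trans h0)]
  push Not at h0
  have hF := hK.mono (subset_univ Fc)
  obtain ⟨κ1, e1⟩ := h.fc hF
  obtain ⟨κ2, e2⟩ := h'.fc hF
  have i1 := int_dnZ hK.bd.1 e1 h0.1
  have i2 := int_dnZ hK.bd.1 e2 h0.2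
  have i3 : IntegrableOn (dn K (x + x' - y - y') (y + y' - 2)) Fc := by
    refine (i1.add i2).mono' (meas_dn hK.bd.1 _ _).aestronglyMeasurable
      ((ae_fc _).mono fun p hp => ?_)
    obtain ⟨h1, h2⟩ := (mem_Fc p).1 hp
    rw [Real.norm_of_nonneg (dn_nonneg _ _ _ hp), Pi.add_apply, dn, dn, dn, ← mul_add,
      show x + x' - y - y' = (x - y) + (x' - y') by ring,
      show y + y' - 2 = (y - 1) + (y' - 1) by ring, show 2 * x - 2 * y = (x - y) * 2 by ring,
      show 2 * x' - 2 * y' = (x' - y') * 2 by ring, show 2 * y - 2 = (y - 1) * 2 by ring,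
      show 2 * y' - 2 = (y' - 1) * 2 by ring]
    simp only [Real.rpow_add h1, Real.rpow_add h2, Real.rpow_mul h1.le, Real.rpow_mul h2.le,
      Real.rpow_two]
    gcongr
    have := mul_nonneg (mul_nonneg (Real.rpow_nonneg h1.le (x - y)) (Real.rpow_nonneg h2.le (y - 1)))
      (mul_nonneg (Real.rpow_nonneg h1.le (x' - y')) (Real.rpow_nonneg h2.le (y' - 1)))
    nlinarith [sq_nonneg (be p ^ (x - y) * mu p ^ (y - 1) - be p ^ (x' - y') * mu p ^ (y' - 1))]
  let M0 : V → ℝ := Fc.indicator fun p => be p ^ (x' - y' - x + y) * mu p ^ (y' - y)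
  have hm : Measurable M0 := Measurable.indicator (by fun_prop) meas_Fc
  have M1 : ∀ p ∈ Fc, 0 < M0 p := fun p hp => by
    obtain ⟨h1, h2⟩ := (mem_Fc p).1 hp
    simp only [M0, indicator_of_mem hp]
    positivity
  have M2 : ∀ p, 0 ≤ M0 p := fun p => by
    by_cases hp : p ∈ Fc
    · exact (M1 p hp).le
    · simp [M0, hp]
  have hN : SN.Bd fun p => (((1 + M0 p)⁻¹ : ℝ) : ℂ) := .ofReal (by fun_prop) (C := 1) fun p => by
    rw [abs_of_pos (by have := M2 p; positivity)]
    exact inv_le_one_of_one_le₀ (by linarith [M2 p])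
  have hM : SN.Bd fun p => (M0 p : ℂ) * (((1 + M0 p)⁻¹ : ℝ) : ℂ) := by
    simp only [← Complex.ofReal_mul]
    refine .ofReal (by fun_prop) (C := 1) fun p => ?_
    have := M2 p
    rw [abs_of_nonneg (by positivity), mul_inv_le_iff₀ (by positivity)]
    linarith
  have hW : Wt (fun p => (((1 + M0 p)⁻¹ : ℝ) : ℂ)) Fc := ⟨hN, fun p => by
    have := M2 p
    exact Complex.ofReal_ne_zero.2 (by positivity), Complex.continuous_ofReal.comp_continuousOn
      (ContinuousOn.inv₀ (continuousOn_const.add (ContinuousOn.congr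
        (((by fun_prop : Continuous be).continuousOn.rpow_const fun p hp =>
          .inl ((mem_Fc p).1 hp).1.ne').mul
        ((by fun_prop : Continuous mu).continuousOn.rpow_const fun p hp =>
          .inl ((mem_Fc p).1 hp).2.ne')) fun p hp => indicator_of_mem hp _))
        fun p _ => by have := M2 p; positivity)⟩
  have a1 := h.mul hK.bd hN hM (fun w p => by
      by_cases hp : p ∈ Fc <;> simp [M0, hp, Fc_gap, mu_gap])
    (a := x' - x) (b := y' - y) fun r s p hr hs => by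
      by_cases hp : p ∈ Fc
      · obtain ⟨h1, h2⟩ := (mem_Fc p).1 hp
        simp only [M0, indicator_of_mem hp, indicator_of_mem ((Fc_scp hs hr).2 hp), be_scp,
          mu_scp hs hr, Real.mul_rpow hr.le h1.le, Real.mul_rpow (mul_pos hs hr).le h2.le,
          Real.mul_rpow hs.le hr.le, ← Complex.ofReal_mul]
        rw [show r ^ (x' - x) = r ^ (x' - y' - x + y) * r ^ (y' - y) by
          rw [← Real.rpow_add hr]; congr 1; ring]
        congr 1
        ring
      · simp [M0, hp, Fc_scp hs hr]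
  have a2 := (h'.pfc hK.bd).mul hK.bd (M := fun _ => 1) hN (by simpa using hN) (fun _ _ => rfl)
    (a := 0) (b := 0) fun r s p hr hs => by simp
  simp only [add_sub_cancel, add_zero, one_mul] at a1 a2
  obtain ⟨κ, e⟩ := overlap0Z a1 a2 (hF.mul hW) (c.bt.nu_Phi_ac hM v hv)
    (c.bt.nu_Phi_ac hN _ (by rw [SN.Calc.nu_P meas_Fc]; exact ae_fc _))
  have i4 : IntegrableOn (fun p => κ * dn K (x + x' - y - y') (y + y' - 2) p) Fc :=
    i3.ofReal.const_mul κ
  refine ⟨κ, fun _ => ⟨lt_of_not_ge fun hy => h0.1 (h.low hK hy),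
    lt_of_not_ge fun hy => h0.2 (h'.low hK hy)⟩, i4, fun G hG => (red G hG).trans ?_⟩
  have hne : ∀ p ∈ Fc, (M0 p : ℂ) * (((1 + M0 p)⁻¹ : ℝ) : ℂ) * (((1 + M0 p)⁻¹ : ℝ) : ℂ) ≠ 0 :=
    fun p hp => mul_ne_zero (mul_ne_zero (Complex.ofReal_ne_zero.2 (M1 p hp).ne') (hW.ne p))
      (hW.ne p)
  refine liftZ (hM.mul hN) i4 (fun G hG => ?_) (hv.mono hne) ((ae_fc _).mono hne) hG
  have := e G hG
  rw [c.bt.adj hM, ← c.bt.mul_apply hG hN, ← c.bt.mul_apply hM.cj (hG.mul hN),
    integral_mm (hF.mul hW).bd.1, ← integral_const_mul] at this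
  refine Eq.trans (by congr 3; funext p; simp; ring) (this.trans ?_)
  refine integral_congr_ae ((ae_fc _).mono fun p hp => ?_)
  obtain ⟨h1, h2⟩ := (mem_Fc p).1 hp
  simp only [dn, norm_mul, Complex.norm_real, Real.norm_eq_abs, mul_pow, sq_abs]
  rw [show 2 * x' - 2 * y' = (x' - y' - x + y) + (x + x' - y - y') by ring,
    show 2 * y' - 2 = (y' - y) + (y + y' - 2) by ring, Real.rpow_add h1, Real.rpow_add h2]
  simp only [M0, indicator_of_mem hp]
  push_cast
  ring

end

end Vale.Agent.P352X.Two
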