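import Vale.Agent.P352X.R.TWO.St
import Vale.Agent.P352Z.P352X.R.TWO.Mu

open Vale.Agent.P352G

/-!
# P352X: the stress tensor as a covariant multiplet (helper21)
-/

set_option linter.all false

open MeasureTheory Measure Set Filter Topology
open scoped SchwartzMap ComplexConjugate NNReal ENNReal LineDeriv

namespace Vale.Agent.P352X.Two

open Vale.Agent.P352.GF Vale.Agent.P352.BW Vale.Agent.P352.H496 Vale.Agent.P352.H755
open UniformSpace (Completion)
open Complex (I)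

noncomputable section

variable {D : Type*} [NormedAddCommGroup D] [InnerProductSpace ℂ D] [GrD D] {c : CtxZ D}

/-- the stress tensor applied to the vacuum -/
def LTZ (c : CtxZ D) (J : Fin 2 → Ix) : Sch →L[ℂ] Completion D :=
  Completion.toComplL ∘L Grp.fC (Grp.T_fld c.hT (J 0) (J 1)) c.Q.vac

lemma LT_applyZ (J : Fin 2 → Ix) (f : Sch) :
    LTZ c J f = (c.T (J 0) (J 1) (ev f) c.Q.vac : D) := rfl

theorem mu_TZ (c : CtxZ D) : MuZ c 4 (LTZ c) := fun μ s L a f g hs hL e => by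
  have := c.hT.cov (μ 0) (μ 1) s L a (ev f) c.Q.vac hs hL ⟨f, rfl⟩
  rw [c.Q.U_vac s L a hs hL, show (fun x => ev f (sim s L a x)) = ev g from (funext e).symm] at this
  rw [LT_applyZ, this, sum2]
  simp only [coe_sum, Completion.coe_smul, LT_applyZ, Grp.coe hs hL, sub_self, Real.rpow_zero,
    one_mul, Fin.prod_univ_two, Matrix.cons_val_zero, Matrix.cons_val_one, Complex.ofReal_mul]

lemma Tv_hkZ (h k : V) (f : Sch) :
    c.Tv (hk h k (ev f)) = ∑ J, (sy ![h, k] J : ℂ) • LTZ c J f := by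
  rw [CtxZ.Tv, CtxZ.Tf, Grp.T_hk c.hT h k ⟨f, rfl⟩, sum2]
  simp only [coe_sum, Completion.coe_smul, LT_applyZ, sy, Fin.prod_univ_two, Matrix.cons_val_zero,
    Matrix.cons_val_one]

lemma LT_perpZ (J : Fin 2 → Ix) (f : Sch) : inner ℂ c.Om (LTZ c J f) = 0 :=
  (Completion.inner_coe _ _).trans (Grp.perp c.hT _ _ ⟨f, rfl⟩)

lemma LT_symZ (m n : Ix) : LTZ c ![m, n] = LTZ c ![n, m] :=
  ContinuousLinearMap.ext fun f => congrArg (fun v : D => (v : Completion D)) (c.hT.symm m n _ _ ⟨f, rfl⟩)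

/-- conservation -/
lemma LT_conZ (n : Ix) {G : V → ℂ} (hG : ∀ m, SN.Bd fun p => G p * (eta m * p m : ℝ))
    (h0 : SN.Bd G) : ∑ m, c.bt.Phi (fun p => G p * (eta m * p m : ℝ)) (LTZ c ![m, n] gS) = 0 := by
  have e : ∑ m, LTZ c ![m, n] (∂_{(bas m 1 : V)} gS) = 0 := by
    simp only [LT_applyZ, ← Grp.pd_ev, ← coe_sum]
    exact (congrArg _ (c.hT.conserved n _ _ ⟨gS, rfl⟩)).trans (Completion.coe_zero)
  have b := wt_g0.bd
  refine Phi_injZ (c := c) b g0_ne ?_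
  have := congrArg (fun z => I • c.bt.Phi G (c.bt.Phi (ft g0) z)) e
  simp only [_root_.map_sum, map_zero, smul_zero, Finset.smul_sum, (mu_TZ c).rel] at this ⊢
  refine (Finset.sum_congr rfl fun m _ => ?_).trans this
  rw [← c.bt.mul_apply b (hG m), ← c.bt.mul_apply h0 (bd_ft ⟨_, rfl⟩),
    ← ContinuousLinearMap.smul_apply, ← c.bt.smul _ (h0.mul (bd_ft ⟨_, rfl⟩))]
  congr 2
  funext p
  rw [← Grp.pd_ev, ft_pd ⟨_, rfl⟩]
  show ft g0 p * _ = I * (G p * (_ * ft g0 p))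
  linear_combination (G p * (eta m * p m : ℝ) * ft g0 p) * Complex.I_sq

variable {K : V → ℂ}

lemma zf_swapZ (a b : Fin 4) : ZfZ c (LTZ c) K ![a, b] = ZfZ c (LTZ c) K ![b, a] := by
  simp only [ZfZ, ZsZ, sum2]
  rw [Finset.sum_comm]
  refine Finset.sum_congr rfl fun m _ => Finset.sum_congr rfl fun n _ => ?_
  simp only [LT_symZ n m, sy, Fin.prod_univ_two, Matrix.cons_val_zero, Matrix.cons_val_one,
    mul_comm]

lemma zf_zero0Z (hK : Ad 2 K) (b : Fin 4) : ZfZ c (LTZ c) K ![3, b] = 0 := by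
  obtain ⟨K', h1, h2⟩ := ex_wt (fun n p => ((eta n * fr b p n : ℝ) : ℂ)) fun n =>
    Complex.continuous_ofReal.comp (by have := cont_fr b; fun_prop)
  refine Phi_injZ (c := c) h1.bd h1.ne ?_
  simp only [ZfZ, ZsZ, sum2, _root_.map_sum, map_zero]
  rw [Finset.sum_comm]
  refine Finset.sum_eq_zero fun n _ => ?_
  have e : ∀ m, (fun p => K p * (K' p * (eta n * fr b p n : ℝ)) * (eta m * p m : ℝ)) =
      fun p => K' p * (K p * sy (fun j => fr (![3, b] j) p) ![m, n]) := fun m => funext fun p => by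
    simp only [sy, Fin.prod_univ_two, Matrix.cons_val_zero, Matrix.cons_val_one]
    show _ = K' p * (K p * ((eta m * p m * _ : ℝ) : ℂ))
    push_cast
    ring
  have := LT_conZ (c := c) n (fun m => by rw [e]; exact h1.bd.mul (hK.ok _ _))
    (hK.wt.bd.mul (h2 n))
  simpa only [e, c.bt.mul_apply h1.bd (hK.ok _ _)] using this

/-- longitudinal components vanish -/
theorem zf_zeroZ (hK : Ad 2 K) {A : Fin 2 → Fin 4} (h : A 0 = 3 ∨ A 1 = 3) :
    ZfZ c (LTZ c) K A = 0 := by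
  rw [show A = ![A 0, A 1] from funext fun j => by fin_cases j <;> rfl]
  rcases h with h | h
  · rw [h, zf_zero0Z hK]
  · rw [h, zf_swapZ, zf_zero0Z hK]

lemma zf_perpZ (hK : Ad 2 K) (A : Fin 2 → Fin 4) : inner ℂ c.Om (ZfZ c (LTZ c) K A) = 0 := by
  rw [ZfZ, ZsZ, inner_sum]
  exact Finset.sum_eq_zero fun J _ => (Kin.inner_om_PhiZ c.bR c.ct (hK.ok A J) _).trans (by
    rw [show inner ℂ (om c.Q) (LTZ c J gS) = 0 from LT_perpZ J gS, mul_zero])

theorem zf_aeZ (hK : Ad 2 K) (A : Fin 2 → Fin 4) : ∀ᵐ p ∂c.nu (ZfZ c (LTZ c) K A), p ∈ Fc :=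
  ((mu_TZ c).vc hK A).high hK.wt1 (by
    rw [Fin.sum_univ_two]; linarith [yw_ge (A 0), yw_ge (A 1)]) (zf_perpZ hK A)

end

end Vale.Agent.P352X.Two
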